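import Vale.Agent.P313.Full.PgAll

/-! The classes `L`, `RL` and `BPL` coincide; the deterministic simulation uses logarithmic space
and polynomial time simultaneously. -/

namespace Vale.Agent.Results.P313.ALogSpace

open Vale.Agent.Lib.Space Vale.Agent.P313

theorem result (A : Type) [Finite A] : BPL A = LOG A ∧ RL A = LOG A ∧
    ∀ L ∈ BPL A ∪ RL A, ∃ M : MultiTape A, M.Decides L ∧
      (∃ (C : ℝ) (N : ℕ), ∀ x : List A, N ≤ x.length → M.UsesAtMost x (C * Real.log x.length)) ∧
      ∃ k : ℕ, ∀ x : List A, M.act x (M.conf x (x.length ^ k + k)) = none := by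
  have h := Full.collapse A
  refine ⟨(h.1.trans h.2).symm, h.1.symm, fun L hL => ?_⟩
  obtain ⟨M, hD, C, N, hS⟩ : L ∈ LOG A := by
    rcases hL with hL | hL
    · exact h.1 ▸ h.2 ▸ hL
    · exact h.1 ▸ hL
  exact ⟨M, hD, ⟨C, N, hS⟩, Easy.exists_time M (fun x => (hD x).imp fun _ h => h.1) hS⟩

end Vale.Agent.Results.P313.ALogSpace
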