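import Vale.Agent.P313.NL.Final

/-! `BPL` and `RL` are contained in deterministic space `log n * (log log n) ^ 2`. -/

namespace Vale.Agent.Results.P313.BANearLog

open Vale.Agent.Lib.Space Vale.Agent.P313

theorem result (A : Type) [Finite A] :
    (BPL A ⊆ SPACE A fun n => Real.log n * Real.log (Real.log n) ^ 2) ∧
    (RL A ⊆ SPACE A fun n => Real.log n * Real.log (Real.log n) ^ 2) :=
  ⟨NL.randLog_subset A le_rfl (by norm_num), NL.randLog_subset A (by norm_num) le_rfl⟩

end Vale.Agent.Results.P313.BANearLog
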