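import Vale.Agent.P313.F43.Final

/-! `BPL` and `RL` are contained in deterministic space `log ^ (4 / 3) n * log log n`. -/

namespace Vale.Agent.Results.P313.BFourThirds

open Vale.Agent.Lib.Space Vale.Agent.P313

theorem result (A : Type) [Finite A] :
    (BPL A ⊆ SPACE A fun n => Real.log n ^ (4 / 3 : ℝ) * Real.log (Real.log n)) ∧
    (RL A ⊆ SPACE A fun n => Real.log n ^ (4 / 3 : ℝ) * Real.log (Real.log n)) :=
  ⟨F43.randLog_subset A le_rfl (by norm_num), F43.randLog_subset A (by norm_num) le_rfl⟩

end Vale.Agent.Results.P313.BFourThirds
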